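import Mathlib

/-!
# Row 213, GEOMETRY layer: bridge between a chart and the manifold (Gram operator)
-/

set_option autoImplicit false
open scoped Manifold ContDiff Topology
open Set Filter Manifold Bundle

namespace Claimed.Agent.R213.Bridge

noncomputable section

variable {E : Type*} [NormedAddCommGroup E] [InnerProductSpace ℝ E]
  {M : Type*} [TopologicalSpace M] [ChartedSpace E M] [IsManifold 𝓘(ℝ, E) ∞ M]

/-- coordinates of a tangent vector at `y` in the chart at `x₀`. -/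
def toChart (x₀ y : M) : TangentSpace 𝓘(ℝ, E) y →L[ℝ] E :=
  (trivializationAt E (TangentSpace 𝓘(ℝ, E)) x₀).continuousLinearMapAt ℝ y

/-- tangent vector at `y` with given coordinates in the chart at `x₀`. -/
def ofChart (x₀ y : M) : E →L[ℝ] TangentSpace 𝓘(ℝ, E) y :=
  (trivializationAt E (TangentSpace 𝓘(ℝ, E)) x₀).symmL ℝ y

theorem mem_baseSet_iff {x₀ y : M} :
    y ∈ (trivializationAt E (TangentSpace 𝓘(ℝ, E)) x₀).baseSet ↔
      y ∈ (extChartAt 𝓘(ℝ, E) x₀).source := by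
  rw [TangentBundle.trivializationAt_baseSet, extChartAt_source]

theorem ofChart_toChart {x₀ y : M} (hy : y ∈ (extChartAt 𝓘(ℝ, E) x₀).source)
    (v : TangentSpace 𝓘(ℝ, E) y) : ofChart x₀ y (toChart x₀ y v) = v :=
  Trivialization.symmL_continuousLinearMapAt _ (mem_baseSet_iff.2 hy) v

theorem toChart_ofChart {x₀ y : M} (hy : y ∈ (extChartAt 𝓘(ℝ, E) x₀).source)
    (a : E) : toChart x₀ y (ofChart x₀ y a) = a :=
  Trivialization.continuousLinearMapAt_symmL _ (mem_baseSet_iff.2 hy) a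

theorem toChart_eq_mfderiv {x₀ y : M} (hy : y ∈ (extChartAt 𝓘(ℝ, E) x₀).source) :
    toChart x₀ y = mfderiv 𝓘(ℝ, E) 𝓘(ℝ, E) (extChartAt 𝓘(ℝ, E) x₀) y :=
  TangentBundle.continuousLinearMapAt_trivializationAt (by rwa [extChartAt_source] at hy)

theorem toChart_self (x₀ : M) (v : TangentSpace 𝓘(ℝ, E) x₀) : toChart x₀ x₀ v = v := by
  rw [toChart_eq_mfderiv (mem_extChartAt_source x₀), mfderiv_extChartAt_self]
  rfl

theorem ofChart_self (x₀ : M) (a : E) : ofChart x₀ x₀ a = a := by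
  have h := ofChart_toChart (mem_extChartAt_source (I := 𝓘(ℝ, E)) x₀)
    (a : TangentSpace 𝓘(ℝ, E) x₀)
  have h2 : toChart x₀ x₀ (a : TangentSpace 𝓘(ℝ, E) x₀) = a := toChart_self x₀ a
  rw [h2] at h
  exact h

/-- the section `z ↦ (φ⁻¹ z, Dφ⁻¹(z) (a z))` of `TM` over the chart is smooth. -/
theorem contMDiffOn_ofChart (x₀ : M) {F : Type*} [NormedAddCommGroup F] [NormedSpace ℝ F]
    {s : Set F} {σ : F → E} {a : F → E} {k : ℕ∞ω} (hk : k ≤ ∞)
    (hσ : ContDiffOn ℝ k σ s) (ha : ContDiffOn ℝ k a s)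
    (hs : MapsTo σ s (extChartAt 𝓘(ℝ, E) x₀).target) :
    ContMDiffOn 𝓘(ℝ, F) (𝓘(ℝ, E).prod 𝓘(ℝ, E)) k
      (fun z => (⟨(extChartAt 𝓘(ℝ, E) x₀).symm (σ z),
        ofChart x₀ ((extChartAt 𝓘(ℝ, E) x₀).symm (σ z)) (a z)⟩ :
          TotalSpace E (TangentSpace 𝓘(ℝ, E) (M := M)))) s := by
  set e := trivializationAt E (TangentSpace 𝓘(ℝ, E) (M := M)) x₀ with he
  have h1 : ContMDiffOn (𝓘(ℝ, E).prod 𝓘(ℝ, E)) (𝓘(ℝ, E).prod 𝓘(ℝ, E)) k
      e.toOpenPartialHomeomorph.symm e.target :=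
    (Trivialization.contMDiffOn_symm (n := ∞) (IB := 𝓘(ℝ, E)) e).of_le hk
  have h2 : ContMDiffOn 𝓘(ℝ, F) (𝓘(ℝ, E).prod 𝓘(ℝ, E)) k
      (fun z => ((extChartAt 𝓘(ℝ, E) x₀).symm (σ z), a z)) s := by
    apply ContMDiffOn.prodMk
    · exact ((contMDiffOn_extChartAt_symm (n := ∞) x₀).of_le hk).comp
        (contMDiffOn_iff_contDiffOn.2 hσ) hs
    · exact contMDiffOn_iff_contDiffOn.2 ha
  have h3 : MapsTo (fun z => ((extChartAt 𝓘(ℝ, E) x₀).symm (σ z), a z)) s e.target := by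
    intro z hz
    rw [Trivialization.mem_target, mem_baseSet_iff]
    exact (extChartAt 𝓘(ℝ, E) x₀).map_target (hs hz)
  refine (h1.comp h2 h3).congr ?_
  intro z hz
  have hb : (extChartAt 𝓘(ℝ, E) x₀).symm (σ z) ∈ e.baseSet :=
    mem_baseSet_iff.2 ((extChartAt 𝓘(ℝ, E) x₀).map_target (hs hz))
  simp only [Function.comp_apply]
  rw [← Trivialization.mk_symm e hb, ofChart, Trivialization.symmL_apply _ hb]

variable [FiniteDimensional ℝ E] [RiemannianBundle (fun x : M => TangentSpace 𝓘(ℝ, E) x)]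

instance instFiniteDimensionalTangentSpace (y : M) :
    FiniteDimensional ℝ (TangentSpace 𝓘(ℝ, E) y) :=
  inferInstanceAs (FiniteDimensional ℝ E)

instance instCompleteSpaceTangentSpace (y : M) : CompleteSpace (TangentSpace 𝓘(ℝ, E) y) :=
  FiniteDimensional.complete ℝ _

/-- Gram operator of the metric in the chart at `x₀`. -/
def gram (x₀ : M) (z : E) : E →L[ℝ] E :=
  (ContinuousLinearMap.adjoint (ofChart x₀ ((extChartAt 𝓘(ℝ, E) x₀).symm z))) ∘L
    (ofChart x₀ ((extChartAt 𝓘(ℝ, E) x₀).symm z))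

theorem inner_gram (x₀ : M) (z a b : E) :
    inner ℝ (gram x₀ z a) b =
      inner ℝ (ofChart x₀ ((extChartAt 𝓘(ℝ, E) x₀).symm z) a)
        (ofChart x₀ ((extChartAt 𝓘(ℝ, E) x₀).symm z) b) := by
  rw [gram, ContinuousLinearMap.comp_apply, ContinuousLinearMap.adjoint_inner_left]

theorem gram_symm (x₀ : M) (z a b : E) :
    inner ℝ (gram x₀ z a) b = inner ℝ a (gram x₀ z b) := by
  rw [inner_gram, real_inner_comm, ← inner_gram, real_inner_comm]

theorem gram_pos {x₀ : M} {z : E} (hz : z ∈ (extChartAt 𝓘(ℝ, E) x₀).target) {a : E}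
    (ha : a ≠ 0) : 0 < inner ℝ (gram x₀ z a) a := by
  rw [inner_gram, real_inner_self_pos]
  intro h
  apply ha
  have := toChart_ofChart ((extChartAt 𝓘(ℝ, E) x₀).map_target hz) a
  rw [h, map_zero] at this
  exact this.symm

/-- inner product on `T_y M` in terms of the Gram operator. -/
theorem inner_eq_gram {x₀ y : M} (hy : y ∈ (extChartAt 𝓘(ℝ, E) x₀).source)
    (v w : TangentSpace 𝓘(ℝ, E) y) :
    inner ℝ v w = inner ℝ (gram x₀ (extChartAt 𝓘(ℝ, E) x₀ y) (toChart x₀ y v)) (toChart x₀ y w) := by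
  rw [inner_gram, (extChartAt 𝓘(ℝ, E) x₀).left_inv hy, ofChart_toChart hy, ofChart_toChart hy]

theorem norm_sq_eq_gram {x₀ y : M} (hy : y ∈ (extChartAt 𝓘(ℝ, E) x₀).source)
    (v : TangentSpace 𝓘(ℝ, E) y) :
    ‖v‖ ^ 2 = inner ℝ (gram x₀ (extChartAt 𝓘(ℝ, E) x₀ y) (toChart x₀ y v)) (toChart x₀ y v) := by
  rw [← inner_eq_gram hy, real_inner_self_eq_norm_sq]

theorem norm_eq_sqrt_gram {x₀ y : M} (hy : y ∈ (extChartAt 𝓘(ℝ, E) x₀).source)
    (v : TangentSpace 𝓘(ℝ, E) y) :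
    ‖v‖ = √(inner ℝ (gram x₀ (extChartAt 𝓘(ℝ, E) x₀ y) (toChart x₀ y v)) (toChart x₀ y v)) := by
  rw [← norm_sq_eq_gram hy, Real.sqrt_sq (norm_nonneg _)]

variable [IsContMDiffRiemannianBundle 𝓘(ℝ, E) ∞ E (fun x : M => TangentSpace 𝓘(ℝ, E) x)]

theorem contDiffOn_inner_gram (x₀ : M) (a b : E) :
    ContDiffOn ℝ ∞ (fun z => inner ℝ (gram x₀ z a) b) (extChartAt 𝓘(ℝ, E) x₀).target := by
  simp only [inner_gram]
  rw [← contMDiffOn_iff_contDiffOn]
  apply ContMDiffOn.inner_bundle (IB := 𝓘(ℝ, E)) (F := E)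
    (E := fun x : M => TangentSpace 𝓘(ℝ, E) x)
    (b := fun z => (extChartAt 𝓘(ℝ, E) x₀).symm z)
  · exact contMDiffOn_ofChart x₀ le_rfl contDiffOn_id contDiffOn_const (mapsTo_id _)
  · exact contMDiffOn_ofChart x₀ le_rfl contDiffOn_id contDiffOn_const (mapsTo_id _)

theorem contDiffOn_gram (x₀ : M) :
    ContDiffOn ℝ ∞ (gram x₀) (extChartAt 𝓘(ℝ, E) x₀).target := by
  rw [contDiffOn_clm_apply]
  intro a
  have : ∀ z, gram x₀ z a = ∑ i, inner ℝ (gram x₀ z a) (stdOrthonormalBasis ℝ E i) •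
      stdOrthonormalBasis ℝ E i := by
    intro z
    conv_lhs => rw [← (stdOrthonormalBasis ℝ E).sum_repr' (gram x₀ z a)]
    simp only [real_inner_comm]
  refine ContDiffOn.congr ?_ (fun z _ => this z)
  apply ContDiffOn.sum
  intro i _
  exact (contDiffOn_inner_gram x₀ a _).smul contDiffOn_const

end

end Claimed.Agent.R213.Bridge
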