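import Claimed.Agent.R213.Bridge.Gram
import Claimed.Agent.R213.Chart.Defs

/-!
# Row 213, GEOMETRY layer: curves in a chart and on the manifold
-/

set_option autoImplicit false
open scoped Manifold ContDiff Topology
open Set Filter Manifold Bundle MeasureTheory

namespace Claimed.Agent.R213.Bridge

noncomputable section

variable {E : Type*} [NormedAddCommGroup E] [InnerProductSpace ℝ E]
  {M : Type*} [TopologicalSpace M] [ChartedSpace E M] [IsManifold 𝓘(ℝ, E) ∞ M]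

/-- coordinates of the velocity of a curve = derivative of the curve read in the chart. -/
theorem toChart_mfderivWithin {x₀ : M} {γ : ℝ → M} {s : Set ℝ} {t : ℝ}
    (hγ : MDifferentiableWithinAt 𝓘(ℝ, ℝ) 𝓘(ℝ, E) γ s t)
    (hmem : γ t ∈ (extChartAt 𝓘(ℝ, E) x₀).source) (hs : UniqueDiffWithinAt ℝ s t) :
    toChart x₀ (γ t) (mfderivWithin 𝓘(ℝ, ℝ) 𝓘(ℝ, E) γ s t (1 : ℝ)) =
      derivWithin (extChartAt 𝓘(ℝ, E) x₀ ∘ γ) s t := by
  have h1 : MDifferentiableAt 𝓘(ℝ, E) 𝓘(ℝ, E) (extChartAt 𝓘(ℝ, E) x₀) (γ t) :=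
    mdifferentiableAt_extChartAt (by rwa [extChartAt_source] at hmem)
  have h2 := mfderiv_comp_mfderivWithin t h1 hγ (uniqueMDiffWithinAt_iff_uniqueDiffWithinAt.2 hs)
  rw [toChart_eq_mfderiv hmem, ← fderivWithin_derivWithin, ← mfderivWithin_eq_fderivWithin, h2]
  rfl

theorem toChart_mfderiv {x₀ : M} {γ : ℝ → M} {t : ℝ}
    (hγ : MDifferentiableAt 𝓘(ℝ, ℝ) 𝓘(ℝ, E) γ t)
    (hmem : γ t ∈ (extChartAt 𝓘(ℝ, E) x₀).source) :
    toChart x₀ (γ t) (mfderiv 𝓘(ℝ, ℝ) 𝓘(ℝ, E) γ t (1 : ℝ)) =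
      deriv (extChartAt 𝓘(ℝ, E) x₀ ∘ γ) t := by
  rw [← mfderivWithin_univ, ← derivWithin_univ]
  exact toChart_mfderivWithin (mdifferentiableWithinAt_univ.2 hγ) hmem uniqueDiffWithinAt_univ

/-- a `C^k` curve inside the chart domain is `C^k` in the chart. -/
theorem contDiffOn_chart_comp {x₀ : M} {γ : ℝ → M} {s : Set ℝ} {k : ℕ∞ω} (hk : k ≤ ∞)
    (hγ : ContMDiffOn 𝓘(ℝ, ℝ) 𝓘(ℝ, E) k γ s)
    (hmem : ∀ t ∈ s, γ t ∈ (extChartAt 𝓘(ℝ, E) x₀).source) :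
    ContDiffOn ℝ k (extChartAt 𝓘(ℝ, E) x₀ ∘ γ) s := by
  rw [← contMDiffOn_iff_contDiffOn]
  refine ((contMDiffOn_extChartAt (n := ∞) (x := x₀)).of_le hk).comp hγ ?_
  intro t ht
  have := hmem t ht
  rwa [extChartAt_source] at this

/-- a `C^k` curve in the chart gives a `C^k` curve on the manifold. -/
theorem contMDiffOn_symm_comp {x₀ : M} {σ : ℝ → E} {s : Set ℝ} {k : ℕ∞ω} (hk : k ≤ ∞)
    (hσ : ContDiffOn ℝ k σ s) (hmem : ∀ t ∈ s, σ t ∈ (extChartAt 𝓘(ℝ, E) x₀).target) :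
    ContMDiffOn 𝓘(ℝ, ℝ) 𝓘(ℝ, E) k ((extChartAt 𝓘(ℝ, E) x₀).symm ∘ σ) s :=
  ((contMDiffOn_extChartAt_symm (n := ∞) x₀).of_le hk).comp
    (contMDiffOn_iff_contDiffOn.2 hσ) hmem

/-- velocity of the curve `φ⁻¹ ∘ σ`. -/
theorem mfderiv_symm_comp {x₀ : M} {σ : ℝ → E} {t : ℝ} (hσ : DifferentiableAt ℝ σ t)
    (hmem : σ t ∈ (extChartAt 𝓘(ℝ, E) x₀).target) :
    mfderiv 𝓘(ℝ, ℝ) 𝓘(ℝ, E) ((extChartAt 𝓘(ℝ, E) x₀).symm ∘ σ) t (1 : ℝ) =
      ofChart x₀ ((extChartAt 𝓘(ℝ, E) x₀).symm (σ t)) (deriv σ t) := by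
  set φ := extChartAt 𝓘(ℝ, E) x₀ with hφ
  have hsrc : φ.symm (σ t) ∈ φ.source := φ.map_target hmem
  have hopen : φ.target ∈ 𝓝 (σ t) := (isOpen_extChartAt_target x₀).mem_nhds hmem
  have h1 : MDifferentiableAt 𝓘(ℝ, E) 𝓘(ℝ, E) φ.symm (σ t) :=
    ((contMDiffOn_extChartAt_symm (n := ∞) x₀).contMDiffAt hopen).mdifferentiableAt (by simp)
  have h2 : MDifferentiableAt 𝓘(ℝ, ℝ) 𝓘(ℝ, E) (φ.symm ∘ σ) t :=
    h1.comp t (mdifferentiableAt_iff_differentiableAt.2 hσ)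
  have h3 := toChart_mfderiv (x₀ := x₀) h2 hsrc
  have h4 : (φ ∘ (φ.symm ∘ σ)) =ᶠ[𝓝 t] σ := by
    filter_upwards [hσ.continuousAt.preimage_mem_nhds hopen] with u hu
    exact φ.right_inv hu
  rw [h4.deriv_eq] at h3
  rw [← h3]
  exact (ofChart_toChart hsrc _).symm

/-- transporting a tangent vector along an equality of base points (the cast of `Def_0370`). -/
theorem toChart_cast (x₀ : M) {p x : M} (h : p = x) (w : TangentSpace 𝓘(ℝ, E) p) :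
    toChart x₀ x (h ▸ w) = toChart x₀ p w := by
  subst h
  rfl

/-- the initial velocity condition of `Def_0370` in the chart at `x₀`. -/
theorem cast_mfderiv_eq_iff {x₀ x : M} {γ : ℝ → M} {t : ℝ} (h : γ t = x)
    (hγ : MDifferentiableAt 𝓘(ℝ, ℝ) 𝓘(ℝ, E) γ t)
    (hx : x ∈ (extChartAt 𝓘(ℝ, E) x₀).source) (v : TangentSpace 𝓘(ℝ, E) x) :
    (h ▸ mfderiv 𝓘(ℝ, ℝ) 𝓘(ℝ, E) γ t (1 : ℝ)) = v ↔
      deriv (extChartAt 𝓘(ℝ, E) x₀ ∘ γ) t = toChart x₀ x v := by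
  rw [← toChart_mfderiv hγ (h ▸ hx), ← toChart_cast x₀ h]
  constructor
  · intro h'
    rw [h']
  · intro h'
    have := congrArg (ofChart x₀ x) h'
    rwa [ofChart_toChart hx, ofChart_toChart hx] at this

variable [FiniteDimensional ℝ E] [RiemannianBundle (fun x : M => TangentSpace 𝓘(ℝ, E) x)]

omit [IsManifold 𝓘(ℝ, E) ∞ M] [FiniteDimensional ℝ E] in
theorem norm_cast {p x : M} (h : p = x) (w : TangentSpace 𝓘(ℝ, E) p) :
    ‖(h ▸ w : TangentSpace 𝓘(ℝ, E) x)‖ = ‖w‖ := by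
  subst h
  rfl

theorem norm_eq_gnorm {x₀ y : M} (hy : y ∈ (extChartAt 𝓘(ℝ, E) x₀).source)
    (v : TangentSpace 𝓘(ℝ, E) y) :
    ‖v‖ = Chart.gnorm (gram x₀) (extChartAt 𝓘(ℝ, E) x₀ y) (toChart x₀ y v) :=
  norm_eq_sqrt_gram hy v

theorem norm_ofChart {x₀ : M} {z : E} (hz : z ∈ (extChartAt 𝓘(ℝ, E) x₀).target) (a : E) :
    ‖ofChart x₀ ((extChartAt 𝓘(ℝ, E) x₀).symm z) a‖ = Chart.gnorm (gram x₀) z a := by
  rw [norm_eq_gnorm ((extChartAt 𝓘(ℝ, E) x₀).map_target hz),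
    toChart_ofChart ((extChartAt 𝓘(ℝ, E) x₀).map_target hz), (extChartAt 𝓘(ℝ, E) x₀).right_inv hz]

/-- **Length of a `C^1` path inside a chart domain.** -/
theorem pathELength_eq_lintegral_gnorm {x₀ : M} {γ : ℝ → M} {a b : ℝ}
    (hγ : ContMDiffOn 𝓘(ℝ, ℝ) 𝓘(ℝ, E) 1 γ (Icc a b))
    (hmem : ∀ t ∈ Icc a b, γ t ∈ (extChartAt 𝓘(ℝ, E) x₀).source) :
    pathELength 𝓘(ℝ, E) γ a b = ∫⁻ t in Icc a b, ENNReal.ofReal
      (Chart.gnorm (gram x₀) (extChartAt 𝓘(ℝ, E) x₀ (γ t))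
        (derivWithin (extChartAt 𝓘(ℝ, E) x₀ ∘ γ) (Icc a b) t)) := by
  rcases le_or_gt b a with hab | hab
  · have : volume.restrict (Icc a b) = 0 := by
      rw [Measure.restrict_eq_zero]
      rcases hab.eq_or_lt with rfl | h
      · simp
      · simp [Icc_eq_empty (not_le.2 h)]
    rw [pathELength_eq_lintegral_mfderivWithin_Icc, this]
    simp
  rw [pathELength_eq_lintegral_mfderivWithin_Icc]
  apply setLIntegral_congr_fun measurableSet_Icc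
  intro t ht
  have h1 : MDifferentiableWithinAt 𝓘(ℝ, ℝ) 𝓘(ℝ, E) γ (Icc a b) t :=
    (hγ t ht).mdifferentiableWithinAt (by simp)
  simp only
  rw [← toChart_mfderivWithin h1 (hmem t ht) (uniqueDiffOn_Icc hab t ht),
    ← norm_eq_gnorm (hmem t ht), ofReal_norm]
  rfl

variable [IsContMDiffRiemannianBundle 𝓘(ℝ, E) ∞ E (fun x : M => TangentSpace 𝓘(ℝ, E) x)]

/-- the Gram operator of the chart at `x₀` is a smooth metric on the chart target. -/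
theorem isMetricOn_gram (x₀ : M) :
    Chart.IsMetricOn (gram x₀) (extChartAt 𝓘(ℝ, E) x₀).target where
  isOpen := isOpen_extChartAt_target x₀
  smooth := contDiffOn_gram x₀
  symm := fun x _ v w => gram_symm x₀ x v w
  pos := fun _ hx _ hv => gram_pos hx hv

end

end Claimed.Agent.R213.Bridge
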